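import Vale.Agent.P154.Law

/-!
P154: the algebra of one tree. An `Ens` is the finite family of likelihood vectors of an
observation about a uniform spin; trees act on them by `chanE` and `prodE`.
-/

namespace Vale.Agent.P154.Tr

open Finset

variable {q : ℕ}

/-- Average of the coordinates. -/
noncomputable def mean (w : Fin q → ℝ) : ℝ := (∑ i, w i) / q

/-- Deviation of the posterior, `q * posterior - 1`. -/
noncomputable def dev (w : Fin q → ℝ) : Fin q → ℝ := fun i => w i / mean w - 1

/-- Homogeneous extension of `g`. -/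
noncomputable def pers (g : (Fin q → ℝ) → ℝ) (w : Fin q → ℝ) : ℝ := mean w * g (dev w)

/-- The channel acting on likelihood vectors. -/
noncomputable def chanV (lam : ℝ) (w : Fin q → ℝ) : Fin q → ℝ :=
  fun i => lam * w i + (1 - lam) * mean w

lemma potts_sum (lam : ℝ) (i : Fin q) (w : Fin q → ℝ) :
    ∑ j, potts q lam i j * w j = chanV lam w i := by
  simp only [potts, chanV, mean, add_mul, sum_add_distrib, mul_assoc, ← mul_sum, ite_mul, one_mul,
    zero_mul, sum_ite_eq, mem_univ, if_true]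
  rw [← mul_div_assoc, div_mul_eq_mul_div]

lemma potts_nonneg {lam : ℝ} (h : -1 ≤ lam * ((q : ℝ) - 1)) (h' : lam ≤ 1) (hq : 1 ≤ q)
    (i j : Fin q) : 0 ≤ potts q lam i j := by
  have hq' : (0 : ℝ) < q := by exact_mod_cast hq
  have : 0 ≤ (1 - lam) / q := div_nonneg (by linarith) hq'.le
  rw [potts]
  split_ifs
  · rw [mul_one, ← sub_nonneg, sub_zero, show lam + (1 - lam) / q = (lam * (q - 1) + 1) / q by
      field_simp; ring]
    exact div_nonneg (by linarith) hq'.le
  · linarith [mul_zero lam]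

lemma chanV_mul (a b : ℝ) (w : Fin q → ℝ) (hq : 1 ≤ q) :
    chanV (a * b) w = chanV a (chanV b w) := by
  have hq' : (q : ℝ) ≠ 0 := by positivity
  have hm : mean (chanV b w) = mean w := by
    simp only [mean, chanV, sum_add_distrib, ← mul_sum, sum_const, card_univ, Fintype.card_fin,
      nsmul_eq_mul]
    field_simp
    ring
  funext i
  rw [chanV, chanV, hm, chanV]
  ring

lemma mean_chanV (hq : 1 ≤ q) (lam : ℝ) (w : Fin q → ℝ) : mean (chanV lam w) = mean w := by
  have hq' : (q : ℝ) ≠ 0 := by positivity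
  simp only [mean, chanV, sum_add_distrib, ← mul_sum, sum_const, card_univ, Fintype.card_fin,
    nsmul_eq_mul]
  field_simp
  ring

lemma mean_nonneg {w : Fin q → ℝ} (h : ∀ i, 0 ≤ w i) : 0 ≤ mean w :=
  div_nonneg (sum_nonneg fun i _ => h i) (Nat.cast_nonneg _)

lemma eq_zero_of_mean (hq : 1 ≤ q) {w : Fin q → ℝ} (h : ∀ i, 0 ≤ w i) (h0 : mean w = 0) :
    w = 0 := by
  have hq' : (q : ℝ) ≠ 0 := by positivity
  rw [mean, div_eq_zero_iff, or_iff_left hq', sum_eq_zero_iff_of_nonneg fun i _ => h i] at h0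
  exact funext fun i => h0 i (mem_univ i)

lemma mean_mul_one_add_dev (hq : 1 ≤ q) {w : Fin q → ℝ} (h : ∀ i, 0 ≤ w i) (i : Fin q) :
    mean w * (1 + dev w i) = w i := by
  rcases eq_or_ne (mean w) 0 with h0 | h0
  · rw [h0, zero_mul, eq_zero_of_mean hq h h0, Pi.zero_apply]
  · rw [dev]
    field_simp
    ring

lemma good_dev (hq : 1 ≤ q) {w : Fin q → ℝ} (h : ∀ i, 0 ≤ w i) (h0 : mean w ≠ 0) :
    Dev (dev w) := by
  have hm : 0 < mean w := lt_of_le_of_ne (mean_nonneg h) (Ne.symm h0)
  have hq' : (q : ℝ) ≠ 0 := by positivity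
  refine ⟨?_, fun i => by rw [dev]; linarith [div_nonneg (h i) hm.le]⟩
  simp only [dev, sum_sub_distrib, ← sum_div, sum_const, card_univ, Fintype.card_fin, nsmul_eq_mul,
    mul_one]
  rw [show (∑ i, w i) = q * mean w by rw [mean, mul_div_cancel₀ _ hq']]
  rw [mul_div_assoc, div_self h0, mul_one, sub_self]

/-- Subadditive, positively homogeneous functions. -/
structure Sublin (G : (Fin q → ℝ) → ℝ) : Prop where
  add : ∀ x y, G (x + y) ≤ G x + G y
  smul : ∀ (c : ℝ), 0 ≤ c → ∀ x, G (c • x) = c * G x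

lemma Sublin.zero {G : (Fin q → ℝ) → ℝ} (hG : Sublin G) : G 0 = 0 := by
  simpa using hG.smul 0 le_rfl 0

lemma Sublin.sum {G : (Fin q → ℝ) → ℝ} (hG : Sublin G) {α : Type*} (s : Finset α)
    (f : α → Fin q → ℝ) : G (∑ a ∈ s, f a) ≤ ∑ a ∈ s, G (f a) :=
  Finset.le_sum_of_subadditive G hG.zero.le hG.add s f

/-- The likelihood vectors of an observation of a uniform spin with a symmetric law. -/
structure Ens (q : ℕ) where
  ι : Type
  fin : Fintype ι
  L : ι → Fin q → ℝ
  nonneg : ∀ x i, 0 ≤ L x i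
  sum_one : ∀ i, ∑ x, L x i = 1
  symm : ∀ (σ : Equiv.Perm (Fin q)) (G : (Fin q → ℝ) → ℝ),
    ∑ x, G (fun i => L x (σ i)) = ∑ x, G (L x)

attribute [instance] Ens.fin

namespace Ens

/-- Sum of a function of the likelihood vectors. -/
def S (e : Ens q) (G : (Fin q → ℝ) → ℝ) : ℝ := ∑ x, G (e.L x)

/-- Expectation of a function of the deviation. -/
noncomputable def E (e : Ens q) (g : (Fin q → ℝ) → ℝ) : ℝ := e.S (pers g)

lemma E_eq (e : Ens q) (g : (Fin q → ℝ) → ℝ) :
    e.E g = ∑ x, mean (e.L x) * g (dev (e.L x)) := rfl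

variable (e e' : Ens q)

lemma E_add (g h : (Fin q → ℝ) → ℝ) : e.E (fun u => g u + h u) = e.E g + e.E h := by
  simp [E_eq, mul_add, sum_add_distrib]

lemma E_sub (g h : (Fin q → ℝ) → ℝ) : e.E (fun u => g u - h u) = e.E g - e.E h := by
  simp [E_eq, mul_sub, sum_sub_distrib]

lemma E_mul_left (c : ℝ) (g : (Fin q → ℝ) → ℝ) : e.E (fun u => c * g u) = c * e.E g := by
  simp [E_eq, mul_sum, mul_left_comm]

lemma E_mul_right (c : ℝ) (g : (Fin q → ℝ) → ℝ) : e.E (fun u => g u * c) = e.E g * c := by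
  simp [E_eq, sum_mul, mul_assoc]

lemma E_sum {α : Type*} (s : Finset α) (g : α → (Fin q → ℝ) → ℝ) :
    e.E (fun u => ∑ a ∈ s, g a u) = ∑ a ∈ s, e.E (g a) := by
  simp only [E_eq, mul_sum]
  exact Finset.sum_comm

lemma E_const (hq : 1 ≤ q) (c : ℝ) : e.E (fun _ => c) = c := by
  have hq' : (q : ℝ) ≠ 0 := by positivity
  simp only [E_eq, ← sum_mul, mean, ← sum_div]
  rw [Finset.sum_comm]
  simp [e.sum_one, hq']

lemma E_mono (hq : 1 ≤ q) {g h : (Fin q → ℝ) → ℝ} (hgh : ∀ u, Dev u → g u ≤ h u) :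
    e.E g ≤ e.E h := by
  rw [E_eq, E_eq]
  refine sum_le_sum fun x _ => ?_
  rcases eq_or_ne (mean (e.L x)) 0 with h0 | h0
  · simp [h0]
  · exact mul_le_mul_of_nonneg_left (hgh _ (good_dev hq (e.nonneg x) h0))
      (mean_nonneg (e.nonneg x))

lemma E_congr (hq : 1 ≤ q) {g h : (Fin q → ℝ) → ℝ} (hgh : ∀ u, Dev u → g u = h u) :
    e.E g = e.E h :=
  le_antisymm (e.E_mono hq fun u hu => (hgh u hu).le) (e.E_mono hq fun u hu => (hgh u hu).ge)

lemma E_nonneg (hq : 1 ≤ q) {g : (Fin q → ℝ) → ℝ} (hg : ∀ u, Dev u → 0 ≤ g u) : 0 ≤ e.E g :=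
  le_of_eq_of_le (e.E_const hq 0).symm (e.E_mono hq hg)

lemma E_sq_le (hq : 1 ≤ q) (g : (Fin q → ℝ) → ℝ) : e.E g ^ 2 ≤ e.E (fun u => g u ^ 2) := by
  have h : 0 ≤ e.E (fun u => (g u - e.E g) ^ 2) := e.E_nonneg hq fun u _ => sq_nonneg _
  simp only [sub_sq, E_add, E_sub, mul_assoc, E_mul_left, E_mul_right, e.E_const hq] at h
  linarith

lemma E_perm (σ : Equiv.Perm (Fin q)) (g : (Fin q → ℝ) → ℝ) :
    e.E (fun u => g (fun i => u (σ i))) = e.E g := by
  have hm : ∀ w : Fin q → ℝ, mean (fun i => w (σ i)) = mean w := fun w => by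
    rw [mean, mean, Equiv.sum_comp σ w]
  refine Eq.trans ?_ (e.symm σ (pers g))
  refine Finset.sum_congr rfl fun x _ => ?_
  simp only [pers, hm]
  congr 1
  refine congrArg g (funext fun i => ?_)
  simp [dev, hm]

/-- Averaging over all permutations. -/
lemma E_avg (g : (Fin q → ℝ) → ℝ) :
    e.E (fun u => (∑ σ : Equiv.Perm (Fin q), g (fun i => u (σ i))) / (Nat.factorial q : ℝ))
      = e.E g := by
  have : (Nat.factorial q : ℝ) ≠ 0 := by exact_mod_cast Nat.factorial_ne_zero q
  simp only [div_eq_mul_inv, E_mul_right, E_sum, e.E_perm, sum_const, card_univ,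
    Fintype.card_perm, Fintype.card_fin, nsmul_eq_mul]
  field_simp

/-- The empty observation. -/
noncomputable def one (q : ℕ) : Ens q where
  ι := Unit
  fin := inferInstance
  L _ _ := 1
  nonneg _ _ := zero_le_one
  sum_one _ := by simp
  symm _ _ := rfl

lemma E_one (hq : 1 ≤ q) (g : (Fin q → ℝ) → ℝ) : (one q).E g = g 0 := by
  have hq' : (q : ℝ) ≠ 0 := by positivity
  have hm : mean (fun _ : Fin q => (1 : ℝ)) = 1 := by simp [mean, hq']
  simp only [E_eq, one, Fintype.sum_unique, hm, one_mul]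
  refine congrArg g (funext fun i => ?_)
  simp [dev, hm]

/-- Two conditionally independent observations. -/
noncomputable def mul : Ens q where
  ι := e.ι × e'.ι
  fin := inferInstance
  L p i := e.L p.1 i * e'.L p.2 i
  nonneg p i := mul_nonneg (e.nonneg _ _) (e'.nonneg _ _)
  sum_one i := by simp [Fintype.sum_prod_type, ← mul_sum, e.sum_one, e'.sum_one]
  symm σ G := by
    simp only [Fintype.sum_prod_type]
    rw [e.symm σ fun w => ∑ y, G fun i => w i * e'.L y (σ i)]
    exact Finset.sum_congr rfl fun x _ => e'.symm σ fun w => G fun i => e.L x i * w i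

lemma S_mul (G : (Fin q → ℝ) → ℝ) :
    (e.mul e').S G = ∑ x, ∑ y, G (fun i => e.L x i * e'.L y i) := by
  exact Fintype.sum_prod_type fun p : e.ι × e'.ι => G fun i => e.L p.1 i * e'.L p.2 i

lemma E_mul (hq : 1 ≤ q) (g : (Fin q → ℝ) → ℝ) :
    (e.mul e').E g = e.E (fun u => e'.E fun v => mz u v * g (merged u v)) := by
  rw [E, S_mul]
  simp only [E_eq, mul_sum]
  refine Finset.sum_congr rfl fun x _ => Finset.sum_congr rfl fun y _ => ?_
  set a := mean (e.L x)
  set b := mean (e'.L y)
  set u := dev (e.L x)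
  set v := dev (e'.L y)
  have hi : ∀ i, e.L x i * e'.L y i = a * b * ((1 + u i) * (1 + v i)) := fun i => by
    rw [← mean_mul_one_add_dev hq (e.nonneg x) i, ← mean_mul_one_add_dev hq (e'.nonneg y) i]
    ring
  have hm : mean (fun i => e.L x i * e'.L y i) = a * b * mz u v := by
    simp only [mz, mean, hi, ← mul_sum, mul_div_assoc]
  rw [pers, hm]
  rcases eq_or_ne (a * b) 0 with h0 | h0
  · rw [← mul_assoc a b, h0]; simp
  have hdev : dev (fun i => e.L x i * e'.L y i) = merged u v := funext fun i => by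
    rw [dev, hm, merged]
    simp only [hi, mul_div_mul_left _ _ h0]
  rw [hdev]
  ring

/-- The combination with the permutations averaged. -/
lemma E_mul_avg (hq : 1 ≤ q) (g : (Fin q → ℝ) → ℝ) :
    (e.mul e').E g = e.E (fun u => e'.E fun v => (∑ σ : Equiv.Perm (Fin q),
      mz u (fun i => v (σ i)) * g (merged u (fun i => v (σ i)))) / (Nat.factorial q : ℝ)) := by
  rw [E_mul e e' hq]
  refine e.E_congr hq fun u _ => ?_
  exact (e'.E_avg fun v => mz u v * g (merged u v)).symm

/-- Multiplicative functions multiply. -/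
lemma E_mul_of_mul (hq : 1 ≤ q) (g : (Fin q → ℝ) → ℝ)
    (hg : ∀ u v, Dev u → Dev v → mz u v * g (merged u v) = g u * g v) :
    (e.mul e').E g = e.E g * e'.E g := by
  rw [E_mul e e' hq, e.E_congr hq (h := fun u => g u * e'.E g) fun u hu =>
    (e'.E_congr hq fun v hv => hg u v hu hv).trans (e'.E_mul_left (g u) g), E_mul_right]

/-- The observation through one Potts channel. -/
noncomputable def chanE (lam : ℝ) (h : -1 ≤ lam * ((q : ℝ) - 1)) (h' : lam ≤ 1) : Ens q where
  ι := e.ι
  fin := e.fin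
  L x i := ∑ j, potts q lam i j * e.L x j
  nonneg x i := sum_nonneg fun j _ =>
    mul_nonneg (potts_nonneg h h' i.pos i j) (e.nonneg x j)
  sum_one i := by
    rw [Finset.sum_comm]
    simp only [← mul_sum, e.sum_one]
    have := potts_sum lam i (fun _ => (1 : ℝ))
    rw [this, chanV, mean]
    have hq' : (q : ℝ) ≠ 0 := by have := i.pos; positivity
    simp [hq']
  symm σ G := by
    refine Eq.trans ?_ (e.symm σ fun w => G fun i => ∑ j, potts q lam i j * w j)
    refine Finset.sum_congr rfl fun x _ => congrArg G (funext fun i => ?_)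
    rw [← Equiv.sum_comp σ (fun j => potts q lam (σ i) j * e.L x j)]
    simp [potts]

lemma S_chanE (lam : ℝ) (h : -1 ≤ lam * ((q : ℝ) - 1)) (h' : lam ≤ 1) (G : (Fin q → ℝ) → ℝ) :
    (e.chanE lam h h').S G = e.S (fun w => G (chanV lam w)) := by
  simp only [S, chanE, potts_sum]
  rfl

lemma E_chanE (hq : 1 ≤ q) (lam : ℝ) (h : -1 ≤ lam * ((q : ℝ) - 1)) (h' : lam ≤ 1)
    (g : (Fin q → ℝ) → ℝ) : (e.chanE lam h h').E g = e.E (fun u => g fun j => lam * u j) := by
  rw [E, S_chanE]
  refine Finset.sum_congr rfl fun x _ => ?_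
  simp only [pers, mean_chanV hq]
  rcases eq_or_ne (mean (e.L x)) 0 with h0 | h0
  · simp [h0]
  congr 1
  refine congrArg g (funext fun i => ?_)
  simp only [dev, mean_chanV hq, chanV]
  field_simp
  ring

/-- Observation of the spin itself. -/
noncomputable def leaf (q : ℕ) : Ens q where
  ι := Fin q
  fin := inferInstance
  L j i := if j = i then 1 else 0
  nonneg j i := by split_ifs <;> norm_num
  sum_one i := by simp
  symm σ G := by
    refine Eq.trans ?_ (Equiv.sum_comp σ.symm fun j => G fun i => if j = i then (1 : ℝ) else 0)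
    refine Finset.sum_congr rfl fun j _ => congrArg G (funext fun i => ?_)
    exact if_congr (by rw [Equiv.symm_apply_eq]) rfl rfl

/-- Independent observations indexed by `Fin k`. -/
noncomputable def prodE : (k : ℕ) → (Fin k → Ens q) → Ens q
  | 0, _ => one q
  | k + 1, f => (f 0).mul (prodE k fun i => f i.succ)

lemma S_prodE : ∀ (k : ℕ) (f : Fin k → Ens q) (G : (Fin q → ℝ) → ℝ),
    (prodE k f).S G = ∑ h : (c : Fin k) → (f c).ι, G (fun i => ∏ c, (f c).L (h c) i) := by
  intro k
  induction k with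
  | zero =>
    intro f G
    show ∑ _x : Unit, G (fun _ => 1) = _
    simp
  | succ k ih =>
    intro f G
    rw [← Equiv.sum_comp (Fin.consEquiv fun c => (f c).ι), Fintype.sum_prod_type, prodE, S_mul]
    refine Finset.sum_congr rfl fun x _ => ?_
    refine (ih (fun i => f i.succ) fun w => G fun i => (f 0).L x i * w i).trans ?_
    simp only [Fin.prod_univ_succ, Fin.consEquiv_apply, Fin.cons_zero, Fin.cons_succ]

/-- `e` is no more informative than `e'`. -/
def Le : Prop := ∀ G : (Fin q → ℝ) → ℝ, Sublin G → e.S G ≤ e'.S G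

lemma Le.rfl' : e.Le e := fun _ _ => le_rfl

lemma Le.trans {e e' e'' : Ens q} (h : e.Le e') (h' : e'.Le e'') : e.Le e'' :=
  fun G hG => (h G hG).trans (h' G hG)

lemma one_le : (one q).Le e := fun G hG => by
  refine le_trans (le_of_eq ?_) (hG.sum univ e.L)
  show ∑ _x : Unit, G (fun _ => 1) = _
  rw [Fintype.sum_unique]
  exact congrArg G (funext fun i => by simp [e.sum_one])

lemma Le.mul {a a' b b' : Ens q} (h : a.Le a') (h' : b.Le b') : (a.mul b).Le (a'.mul b') := by
  intro G hG
  rw [S_mul, S_mul]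
  refine le_trans (Finset.sum_le_sum fun x _ => h' (fun w => G fun i => a.L x i * w i) ?_) ?_
  · refine ⟨fun u v => le_of_eq_of_le (congrArg G ?_) (hG.add _ _), fun c hc u => ?_⟩
    · funext i; simp [mul_add]
    · rw [← hG.smul c hc]
      exact congrArg G (funext fun i => by simp; ring)
  · simp only [S]
    rw [Finset.sum_comm, Finset.sum_comm (γ := a'.ι)]
    refine Finset.sum_le_sum fun y _ => h (fun w => G fun i => w i * b'.L y i) ?_
    refine ⟨fun u v => le_of_eq_of_le (congrArg G ?_) (hG.add _ _), fun c hc u => ?_⟩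
    · funext i; simp [add_mul]
    · rw [← hG.smul c hc]
      exact congrArg G (funext fun i => by simp; ring)

lemma Le.chanE {e e' : Ens q} (he : e.Le e') (lam : ℝ) (h : -1 ≤ lam * ((q : ℝ) - 1))
    (h' : lam ≤ 1) : (e.chanE lam h h').Le (e'.chanE lam h h') := by
  intro G hG
  rw [S_chanE, S_chanE]
  refine he _ ⟨fun u v => le_of_eq_of_le (congrArg G ?_) (hG.add _ _), fun c hc u => ?_⟩
  · funext i; simp [chanV, mean, sum_add_distrib, add_div]; ring
  · rw [← hG.smul c hc]
    refine congrArg G (funext fun i => ?_)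
    simp [chanV, mean, ← mul_sum]
    ring

/-- A channel degrades: `chanE lam e` is no more informative than `e`. -/
lemma chanE_le (hq : 1 ≤ q) (lam : ℝ) (h : -1 ≤ lam * ((q : ℝ) - 1)) (h' : lam ≤ 1) :
    (e.chanE lam h h').Le e := by
  intro G hG
  rw [S_chanE]
  have : NeZero q := ⟨by omega⟩
  set c : Fin q → ℝ := fun r => potts q lam 0 r with hc
  have hsum : ∑ r, c r = 1 := by
    have := potts_sum lam (0 : Fin q) (fun _ => (1 : ℝ))
    simp only [mul_one] at this
    rw [hc, this, chanV, mean]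
    have hq' : (q : ℝ) ≠ 0 := by positivity
    simp [hq']
  have hdec : ∀ w : Fin q → ℝ, chanV lam w = ∑ r, c r • fun i => w (Equiv.addRight r i) := by
    intro w
    funext i
    rw [← potts_sum, Finset.sum_apply, ← Equiv.sum_comp (Equiv.addLeft i)]
    refine Finset.sum_congr rfl fun r _ => ?_
    simp [hc, potts, eq_comm]
  calc e.S (fun w => G (chanV lam w))
      ≤ ∑ x, ∑ r, c r * G (fun i => e.L x (Equiv.addRight r i)) := by
        refine Finset.sum_le_sum fun x _ => ?_
        show G (chanV lam (e.L x)) ≤ _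
        rw [hdec]
        refine (hG.sum univ _).trans (le_of_eq (Finset.sum_congr rfl fun r _ => ?_))
        exact hG.smul _ (potts_nonneg h h' hq _ _) _
    _ = ∑ r, c r * e.S G := by
        rw [Finset.sum_comm]
        refine Finset.sum_congr rfl fun r _ => ?_
        rw [← mul_sum, e.symm (Equiv.addRight r) G, S]
    _ = e.S G := by rw [← sum_mul, hsum, one_mul]

lemma chanE_mul_le (hq : 1 ≤ q) (a b : ℝ) (ha : -1 ≤ a * ((q : ℝ) - 1)) (ha' : a ≤ 1)
    (hb : -1 ≤ b * ((q : ℝ) - 1)) (hb' : b ≤ 1) (hab : -1 ≤ a * b * ((q : ℝ) - 1))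
    (hab' : a * b ≤ 1) : (e.chanE (a * b) hab hab').Le (e.chanE b hb hb') := by
  refine Le.trans ?_ ((e.chanE b hb hb').chanE_le hq a ha ha')
  intro G _
  rw [S_chanE, S_chanE, S_chanE]
  exact le_of_eq (Finset.sum_congr rfl fun x _ => by simp [chanV_mul a b _ hq])

lemma Le.prodE : ∀ (k : ℕ) (f f' : Fin k → Ens q), (∀ c, (f c).Le (f' c)) →
    (Ens.prodE k f).Le (Ens.prodE k f')
  | 0, _, _, _ => fun _ _ => le_rfl
  | k + 1, _, _, h => (h 0).mul (Le.prodE k _ _ fun c => h c.succ)

lemma prodE_mono_card : ∀ {k k' : ℕ}, k ≤ k' → ∀ e : Ens q,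
    (prodE k fun _ => e).Le (prodE k' fun _ => e)
  | 0, _, _, _ => one_le _
  | _ + 1, _ + 1, h, e => (Le.rfl' e).mul (prodE_mono_card (Nat.le_of_succ_le_succ h) e)

end Ens

section trees

variable (lam : ℝ) (h : -1 ≤ lam * ((q : ℝ) - 1)) (h' : lam ≤ 1)

/-- The observation of the root through the spins at level `n`. -/
noncomputable def treeE : (n : ℕ) → Tree n → Ens q
  | 0, _ => Ens.leaf q
  | n + 1, T => Ens.prodE T.1 fun c => (treeE n (T.2 c)).chanE lam h h'

/-- The expectation of a function of the deviation at the root. -/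
noncomputable def ET (n : ℕ) (T : Tree n) (g : (Fin q → ℝ) → ℝ) : ℝ := (treeE lam h h' n T).E g

lemma treeE_zero (T : Tree 0) : treeE lam h h' 0 T = Ens.leaf q := rfl

lemma treeE_succ (n : ℕ) (T : Tree (n + 1)) :
    treeE lam h h' (n + 1) T = Ens.prodE T.1 fun c => (treeE lam h h' n (T.2 c)).chanE lam h h' :=
  rfl

lemma sum_pi_congr : ∀ (k : ℕ) {α β : Fin k → Type} [∀ c, Fintype (α c)] [∀ c, Fintype (β c)]
    (A : ∀ c, α c → Fin q → ℝ) (B : ∀ c, β c → Fin q → ℝ),
    (∀ c (F : (Fin q → ℝ) → ℝ), ∑ x, F (A c x) = ∑ y, F (B c y)) →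
    ∀ G : (Fin q → ℝ) → ℝ,
      ∑ x : (c : Fin k) → α c, G (fun i => ∏ c, A c (x c) i) =
        ∑ y : (c : Fin k) → β c, G (fun i => ∏ c, B c (y c) i) := by
  intro k
  induction k with
  | zero => intro α β _ _ A B _ G; simp
  | succ k ih =>
    intro α β _ _ A B hAB G
    rw [← Equiv.sum_comp (Fin.consEquiv α), ← Equiv.sum_comp (Fin.consEquiv β),
      Fintype.sum_prod_type, Fintype.sum_prod_type]
    simp only [Fin.prod_univ_succ, Fin.consEquiv_apply, Fin.cons_zero, Fin.cons_succ]
    rw [Finset.sum_congr rfl fun x _ => ih (fun c => A c.succ) (fun c => B c.succ)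
      (fun c => hAB c.succ) fun w => G fun i => A 0 x i * w i]
    rw [Finset.sum_comm, Finset.sum_comm (γ := β 0)]
    exact Finset.sum_congr rfl fun y _ => hAB 0 fun w => G fun i => w i * ∏ c, B c.succ (y c) i

lemma S_treeE : ∀ (n : ℕ) (T : Tree n) (G : (Fin q → ℝ) → ℝ),
    (treeE lam h h' n T).S G = ∑ η : Leaf n T → Fin q, G (fun i => lik lam n T i η) := by
  intro n
  induction n with
  | zero =>
    intro T G
    rw [treeE_zero, Ens.S]
    show ∑ j : Fin q, G ((Ens.leaf q).L j) = _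
    exact Finset.sum_nbij' (fun j _ => j) (fun η => η ()) (fun _ _ => Finset.mem_univ _)
      (fun _ _ => Finset.mem_univ _) (fun _ _ => rfl) (fun η _ => funext fun _ => rfl)
      (fun j _ => rfl)
  | succ n ih =>
    intro T G
    have hc : ∀ c (F : (Fin q → ℝ) → ℝ),
        ((treeE lam h h' n (T.2 c)).chanE lam h h').S F =
          ∑ η : Leaf n (T.2 c) → Fin q,
            F (fun i => ∑ j, potts q lam i j * lik lam n (T.2 c) j η) := fun c F => by
      rw [Ens.S_chanE, ih]
      simp only [potts_sum]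
    rw [treeE_succ, Ens.S_prodE]
    refine (sum_pi_congr T.1 _
      (fun c (η : Leaf n (T.2 c) → Fin q) i => ∑ j, potts q lam i j * lik lam n (T.2 c) j η)
      hc G).trans ?_
    exact Finset.sum_nbij' (fun η l => η l.1 l.2) (fun η c l => η ⟨c, l⟩)
      (fun _ _ => Finset.mem_univ _) (fun _ _ => Finset.mem_univ _) (fun _ _ => rfl)
      (fun _ _ => rfl) (fun _ _ => rfl)

lemma ET_eq (hq : 1 ≤ q) (n : ℕ) (T : Tree n) (g : (Fin q → ℝ) → ℝ) :
    ET lam h h' n T g = ∑ η : Leaf n T → Fin q,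
      evid lam n T η * g (fun i => q * posterior lam n T η i - 1) := by
  have hq' : (q : ℝ) ≠ 0 := by positivity
  rw [ET, Ens.E, S_treeE]
  refine Finset.sum_congr rfl fun η _ => ?_
  have he : evid lam n T η = mean fun i => lik lam n T i η := by
    simp [evid, mean, ← mul_sum, div_eq_inv_mul]
  rw [pers, he]
  congr 2
  funext i
  rw [dev, posterior, he]
  field_simp

/-- The advantage as an expectation. -/
lemma advantage_eq (hq : 1 ≤ q) (n : ℕ) (T : Tree n) :
    advantage q lam n T = ET lam h h' n T (fun u => (∑ i, |u i|) / (2 * q)) := by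
  rw [ET_eq lam h h' hq, advantage]
  refine Finset.sum_congr rfl fun η _ => ?_
  congr 1
  rw [sum_div, mul_sum]
  refine Finset.sum_congr rfl fun i _ => ?_
  have hq' : (0 : ℝ) < q := by positivity
  simp only
  rw [show (q : ℝ) * posterior lam n T η i - 1 = q * (posterior lam n T η i - 1 / q) by field_simp,
    abs_mul, abs_of_pos hq']
  field_simp

include h h' in
lemma advantage_nonneg (hq : 1 ≤ q) (n : ℕ) (T : Tree n) : 0 ≤ advantage q lam n T := by
  rw [advantage_eq lam h h' hq]
  exact Ens.E_nonneg _ hq fun u _ => by positivity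

/-- The advantage is controlled by the second moment. -/
lemma advantage_sq_le (hq : 1 ≤ q) (n : ℕ) (T : Tree n) :
    advantage q lam n T ^ 2 ≤ ET lam h h' n T (fun u => ∑ i, u i ^ 2) / (4 * q) := by
  rw [advantage_eq lam h h' hq, ET, ET, div_eq_mul_inv _ (4 * (q : ℝ)), ← Ens.E_mul_right]
  refine (Ens.E_sq_le _ hq _).trans (Ens.E_mono _ hq fun u _ => ?_)
  have := sq_sum_le_card_mul_sum_sq (s := (univ : Finset (Fin q))) (f := fun i => |u i|)
  simp only [sq_abs, card_univ, Fintype.card_fin] at this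
  have hq' : (0 : ℝ) < q := by positivity
  rw [div_pow, div_le_iff₀ (by positivity)]
  refine this.trans (le_of_eq ?_)
  field_simp
  ring

/-- More information, more advantage. -/
lemma advantage_le_of_Le (hq : 1 ≤ q) {m n : ℕ} {S : Tree m} {T : Tree n} {mu : ℝ}
    (hm : -1 ≤ mu * ((q : ℝ) - 1)) (hm' : mu ≤ 1)
    (hle : (treeE mu hm hm' m S).Le (treeE lam h h' n T)) :
    advantage q mu m S ≤ advantage q lam n T := by
  rw [advantage_eq mu hm hm' hq, advantage_eq lam h h' hq]
  have hG : Sublin (fun w : Fin q → ℝ => (∑ i, |w i - mean w|) / (2 * q)) := by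
    refine ⟨fun x y => ?_, fun c hc x => ?_⟩
    · rw [← add_div, ← sum_add_distrib]
      gcongr with i
      refine le_of_eq_of_le ?_ (abs_add_le _ _)
      congr 1
      simp [mean, sum_add_distrib, add_div]
      ring
    · rw [← mul_div_assoc, mul_sum]
      congr 1
      refine Finset.sum_congr rfl fun i _ => ?_
      rw [← abs_of_nonneg hc, ← abs_mul, abs_of_nonneg hc]
      congr 1
      simp [mean, ← mul_sum]
      ring
  have key : ∀ e : Ens q, e.E (fun u => (∑ i, |u i|) / (2 * q)) =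
      e.S (fun w => (∑ i, |w i - mean w|) / (2 * q)) := fun e => by
    refine Finset.sum_congr rfl fun x _ => ?_
    rw [pers, ← mul_div_assoc, mul_sum]
    congr 1
    refine Finset.sum_congr rfl fun i _ => ?_
    nth_rewrite 1 [← abs_of_nonneg (mean_nonneg (e.nonneg x))]
    rw [← abs_mul]
    congr 1
    linear_combination mean_mul_one_add_dev hq (e.nonneg x) i
  simp only [ET, key]
  exact hle _ hG

end trees

end Vale.Agent.P154.Tr
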